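import Vale.Agent.P052.Configs

/-!
Borsuk's conjecture fails in every dimension d ≥ 63.
-/

namespace Vale.Agent.Results.P052.BorsukFailsFrom63

open Vale.Agent.P052

theorem result : ∀ d : ℕ, 63 ≤ d →
    ∃ Y : Set (EuclideanSpace ℝ (Fin d)), Bornology.IsBounded Y ∧ 0 < Metric.diam Y ∧
      ∀ P : Fin (d + 1) → Set (EuclideanSpace ℝ (Fin d)), Y = ⋃ i, P i →
        ∃ i, Metric.diam Y ≤ Metric.diam (P i) := by
  intro d hd
  obtain h | h : d = 63 ∨ 64 ≤ d := by omega
  · subst h
    exact needs_63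
  · obtain ⟨k, rfl⟩ := Nat.exists_eq_add_of_le h
    have := needs_64_add k
    unfold NeedsMore at this
    rw [show 64 + k + 1 = 65 + k by omega]
    exact this

end Vale.Agent.Results.P052.BorsukFailsFrom63
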